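import Vale.Agent.P129BJ.Defs

/-!
# The axioms of ZF
-/

namespace Vale.Agent.P323S

open Vale.Agent.P323.Z Vale.Agent.P129B.Syn

/-- The axioms of ZF: Extensionality, Foundation, Pairing, Union, Power Set, Infinity, and the
universal closures of all instances of Separation and of Replacement. -/
def ZF : Set (Fml 0) :=
  {extF, fndF, pairF, unionF, powF, infF} ∪
    {ψ | ∃ n, ∃ φ : Fml (n + 1), ψ = clo (sepF φ)} ∪ {ψ | ∃ n, ∃ φ : Fml (n + 2), ψ = clo (repF φ)}

end Vale.Agent.P323S
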