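import Vale.Agent.P323S.Defs
import Vale.Agent.P129BJ.Complete
import Vale.Agent.P323.Z.Final

/-!
# ZF does not prove that the Partition Principle implies the Axiom of Choice
-/

set_option linter.unusedSimpArgs false

namespace Vale.Agent.P323S

open Vale.Agent.P323.Z Vale.Agent.P323.Z.Fml Vale.Agent.P129B.Syn

/-- The models of ZF are the structures in which the axioms are true. -/
theorem isZFModel_iff {M : Type*} (E : M → M → Prop) :
    IsZFModel E ↔ ∀ ψ ∈ ZF, ψ.Sat E Fin.elim0 := by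
  have e1 : extF.Sat E Fin.elim0 ↔ ∀ x y, (∀ z, E z x ↔ E z y) → x = y := by
    simp only [extF, sat_all, sat_iff, sat_imp, sat_eq, sat_mem, Fin.snoc_castSucc, Fin.snoc_last]
  have e2 : fndF.Sat E Fin.elim0 ↔ ∀ x, (∃ y, E y x) → ∃ y, E y x ∧ ∀ z, E z x → ¬ E z y := by
    simp only [fndF, sat_all, sat_ex, sat_and, sat_imp, sat_neg, sat_mem, Fin.snoc_castSucc,
      Fin.snoc_last]
  have e3 : pairF.Sat E Fin.elim0 ↔ ∀ x y, ∃ p, ∀ z, E z p ↔ z = x ∨ z = y := by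
    simp only [pairF, sat_all, sat_ex, sat_iff, sat_or, sat_eq, sat_mem, Fin.snoc_castSucc,
      Fin.snoc_last]
  have e4 : unionF.Sat E Fin.elim0 ↔ ∀ x, ∃ u, ∀ z, E z u ↔ ∃ y, E y x ∧ E z y := by
    simp only [unionF, sat_all, sat_ex, sat_iff, sat_and, sat_mem, Fin.snoc_castSucc,
      Fin.snoc_last]
  have e5 : powF.Sat E Fin.elim0 ↔ ∀ x, ∃ p, ∀ z, E z p ↔ ∀ w, E w z → E w x := by
    simp only [powF, sat_all, sat_ex, sat_iff, sat_imp, sat_mem, Fin.snoc_castSucc, Fin.snoc_last]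
  have e6 : infF.Sat E Fin.elim0 ↔ ∃ w, (∃ e, E e w ∧ ∀ z, ¬ E z e) ∧
      ∀ x, E x w → ∃ s, E s w ∧ ∀ z, E z s ↔ E z x ∨ z = x := by
    simp only [infF, sat_all, sat_ex, sat_iff, sat_and, sat_or, sat_imp, sat_neg, sat_eq, sat_mem,
      Fin.snoc_castSucc, Fin.snoc_last]
  constructor
  · rintro h ψ ((hψ | ⟨n, φ, rfl⟩) | ⟨n, φ, rfl⟩)
    · rcases hψ with rfl | rfl | rfl | rfl | rfl | rfl
      exacts [e1.2 h.1, e2.2 h.2, e3.2 h.3, e4.2 h.4, e5.2 h.5, e6.2 h.6]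
    · refine (sat_clo E _).2 fun v => (sat_sepF E _ v).2 fun a => ?_
      simpa only [P129Z.sat_toBF] using h.separation n (P129Z.toBF φ) v a
    · refine (sat_clo E _).2 fun v => (sat_repF E _ v).2 fun a => ?_
      simpa only [P129Z.sat_toBF] using h.replacement n (P129Z.toBF φ) v a
  · intro h
    refine ⟨e1.1 (h _ (by simp [ZF])), e2.1 (h _ (by simp [ZF])),
      e3.1 (h _ (by simp [ZF])), e4.1 (h _ (by simp [ZF])), e5.1 (h _ (by simp [ZF])),
      e6.1 (h _ (by simp [ZF])), fun n φ v a => ?_, fun n φ v a => ?_⟩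
    · simpa only [sat_ofBF] using (sat_sepF E _ v).1
        ((sat_clo E _).1 (h _ (Or.inl (Or.inr ⟨n, ofBF φ, rfl⟩))) v) a
    · simpa only [sat_ofBF] using (sat_repF E _ v).1
        ((sat_clo E _).1 (h _ (Or.inr ⟨n, ofBF φ, rfl⟩)) v) a

/-- The deduction theorem. -/
theorem ded {T : Set (Fml 0)} {χ : Fml 0} {n : ℕ} {Γ : List (Fml n)} {φ : Fml n}
    (h : Prf (insert χ T) Γ φ) :
    ∀ Δ : List (Fml n), Γ ⊆ Δ → χ.rename Fin.elim0 ∈ Δ → Prf T Δ φ := by
  have key : ∀ {n : ℕ} {Δ : List (Fml n)}, χ.rename Fin.elim0 ∈ Δ →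
      χ.rename Fin.elim0 ∈ Δ.map lift := by
    intro n Δ H
    refine List.mem_map.2 ⟨_, H, ?_⟩
    rw [lift, rename_rename, Subsingleton.elim (_ ∘ Fin.elim0) Fin.elim0]
  induction h with
  | ax h =>
    intro Δ _ H
    rcases h with rfl | h
    exacts [.hyp H, .ax h]
  | hyp h => exact fun Δ H _ => .hyp (H h)
  | impI _ ih =>
    exact fun Δ H K => .impI (ih _ (List.cons_subset_cons _ H) (List.mem_cons_of_mem _ K))
  | impE _ _ ih₁ ih₂ => exact fun Δ H K => .impE (ih₁ Δ H K) (ih₂ Δ H K)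
  | raa _ ih =>
    exact fun Δ H K => .raa (ih _ (List.cons_subset_cons _ H) (List.mem_cons_of_mem _ K))
  | allI _ ih => exact fun Δ H K => .allI (ih _ (List.map_subset _ H) (key K))
  | allE i _ ih => exact fun Δ H K => .allE i (ih Δ H K)
  | refl i => exact fun Δ _ _ => .refl i
  | subst φ i j _ _ ih₁ ih₂ => exact fun Δ H K => .subst φ i j (ih₁ Δ H K) (ih₂ Δ H K)
  | nonempty _ ih => exact fun Δ H K => .nonempty (ih _ (List.map_subset _ H) (key K))

/-- A theory is consistent if and only if it has a nonempty model. -/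
theorem con_iff (T : Set (Fml 0)) : Con T ↔
    ∃ (M : Type) (E : M → M → Prop), Nonempty M ∧ ∀ ψ ∈ T, ψ.Sat E Fin.elim0 :=
  ⟨fun h => let ⟨M, E, h1, _, h2⟩ := exists_model h; ⟨M, E, h1, h2⟩,
    fun ⟨_, _, _, h⟩ k => k.sound h Fin.elim0 fun _ h => absurd h List.not_mem_nil⟩

/-- Soundness and completeness: provable means true in all nonempty models. -/
theorem prf_iff (T : Set (Fml 0)) (φ : Fml 0) : Prf T [] φ ↔
    ∀ (M : Type) (E : M → M → Prop), Nonempty M → (∀ ψ ∈ T, ψ.Sat E Fin.elim0) →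
      φ.Sat E Fin.elim0 := by
  refine ⟨fun h M E _ hT => h.sound hT _ fun _ h => absurd h List.not_mem_nil, fun h => ?_⟩
  by_contra k
  obtain ⟨M, E, h1, h2⟩ := (con_iff (insert (neg φ) T)).1 fun c => k (Prf.raa
    (ded c _ (List.nil_subset _) (by
      rw [rename_id _ _ fun i => i.elim0]; exact List.mem_cons_self)))
  exact h2 _ (Set.mem_insert _ _) (h M E h1 fun ψ hψ => h2 ψ (Set.mem_insert_of_mem _ hψ))

theorem con_pp : Con (ZF ∪ {ppF, neg acF}) := by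
  obtain ⟨M, E, h1, h2, h3⟩ := exists_model_pp_not_ac
  refine (con_iff _).2 ⟨M, E, ⟨h1.infinity.choose⟩, ?_⟩
  rintro ψ (h | rfl | rfl)
  exacts [(isZFModel_iff E).1 h1 ψ h, (sat_ppF E _).2 h2, fun k => h3 ((sat_acF E _).1 k)]

theorem not_prf : ¬ Prf ZF [] (imp ppF acF) := fun k => by
  obtain ⟨M, E, h1, h2, h3⟩ := exists_model_pp_not_ac
  exact h3 ((sat_acF E _).1 ((prf_iff _ _).1 k M E ⟨h1.infinity.choose⟩
    ((isZFModel_iff E).1 h1) ((sat_ppF E _).2 h2)))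

end Vale.Agent.P323S
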